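import Crest.Agent.X212.Top11.AlcA
import Crest.Agent.X212.Cqn41.Nr0
import Crest.Agent.X212.Nt66.Ln

/-!
# Row 212, NTR-ALTC (text and proof of helper11, split for elaboration by helper32): the alternative in a chart
-/

set_option autoImplicit false
set_option linter.unusedSectionVars false
noncomputable section
open scoped Manifold ContDiff Topology InnerProductSpace
open MeasureTheory Set Function Filter

namespace Crest.Agent.X212.Alc32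
open An M Nd18 Mod61 Cht98 Rf65 Pte3 Prm93 Sob92 Nt66 Hol14 Top11.Alc
open Nr41 (Ld Tg vC Ht va)
open An.Job (isClopen_un)

theorem lk_of {Y ι : Type} [NormedAddCommGroup Y] [NormedSpace ℝ Y] [Fintype ι] {H : ι → Type}
    [∀ i, NormedAddCommGroup (H i)] [∀ i, InnerProductSpace ℝ (H i)]
    {u : ℝ → Y × (∀ i, H i) × (ι → ℝ)} {u'} (k : HasDerivAt u u' 0) {D : ∀ i, H i →L[ℝ] H i}
    {ψ η : ∀ i, H i} (e1 : ∀ s i, (u s).2.1 i = D i ((ψ + s • η) i))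
    (e2 : ∀ s i, (u s).2.2 i = ‖(ψ + s • η) i‖ ^ 2 - 1) (i : ι) :
    u'.2.1 i = D i (η i) ∧ u'.2.2 i = 2 * ⟪ψ i, η i⟫_ℝ := by
  have l := ((hasDerivAt_id (0 : ℝ)).smul_const (η i)).const_add (ψ i)
  have a := (ContinuousLinearMap.snd ℝ _ _).hasFDerivAt.comp_hasDerivAt 0 k
  have a1 := hasDerivAt_pi.1 ((ContinuousLinearMap.fst ℝ _ _).hasFDerivAt.comp_hasDerivAt 0 a) i
  have a2 := hasDerivAt_pi.1 ((ContinuousLinearMap.snd ℝ _ _).hasFDerivAt.comp_hasDerivAt 0 a) i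
  exact ⟨(a1.unique (((D i).hasFDerivAt.comp_hasDerivAt 0 l).congr_of_eventuallyEq
      (.of_forall fun s => e1 s i))).trans (by rw [one_smul]),
    (a2.unique ((l.norm_sq.sub_const 1).congr_of_eventuallyEq (.of_forall fun s => e2 s i))).trans
      (by simp)⟩

section hs
variable {Z : Mf 4} {ι V : Type} [Fintype ι] [NormedAddCommGroup V] [InnerProductSpace ℝ V]
  [CompleteSpace V] {F : Fr Z.I Z.M ι} {S : ℝ} (hS : Sup F.toPre S) {k : ℕ} (hk : 4 ≤ k)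
  {P Q : Z.M → CL V V} {O : Set Z.M}

variable (F k P Q O) in
/-- restriction to a clopen set -/
def rs : F.H k Q →L[ℝ] F.H k P := F.mulH k Q P (O.indicator fun _ => .id ℝ V)

include hS hk in
theorem val_rs (hO : IsClopen O) (e : ∀ z ∈ O, P z = Q z) (u : F.H k Q) :
    F.val k P (rs F k P Q O u) = O.indicator (F.val k Q u) := funext fun z =>
  (val_mulH hS hk (Grp76.Cb_ind hO (Cb_const (ContinuousLinearMap.id ℝ V)))
    (fun z v hv => by by_cases hz : z ∈ O <;> simp [hz, e, hv]) u z).trans (by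
      by_cases hz : z ∈ O <;> simp [hz])

end hs

variable {Wi : Type} {X : Mf 4} {A κ lam : Type} [Fintype A] [Fintype κ] [Fintype lam]
  [DecidableEq lam] {M : Mark X A κ} {W : World M} {N : ML M lam} {Λ : Lns W N}
  {A' h : Type} [Fintype A'] [DecidableEq A'] [Fintype h] {r n : ℕ}
  {J : Job Wi Λ A' h r n} {c : M.Cl} {σ : Cel A'} {p : Prt A A' h} {U : Type} [Fintype U] {δ : ℝ}
  {b : Bp J c} {E : EC b p U δ} {q : Wi →₀ ℝ} {x : Pnt E.o r} {ψ : E.K} {f : E.C → E.Y}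
  {P P' : Set (Reg A)}

variable (E) in
/-- the targets -/
def tg (O O' : Set (W.Z c).M) (Hs : Set h) : Submodule ℝ E.Y where
  carrier := {e | Tg O O' Hs e}
  zero_mem' := ⟨fun z _ => congrFun val_zero z, fun z _ => congrFun val_zero z, rfl,
    fun _ _ => ⟨rfl, rfl⟩⟩
  add_mem' := fun a a' => ⟨
    fun z k => (congrFun (val_add _ _) z).trans (by rw [Pi.add_apply, a.D z k, a'.D z k, add_zero]),
    fun z k => (congrFun (val_add _ _) z).trans (by rw [Pi.add_apply, a.C z k, a'.C z k, add_zero]),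
    (congrArg₂ (· + ·) a.S a'.S).trans (add_zero _), fun i k =>
      ⟨(congrArg₂ (· + ·) (a.T i k).1 (a'.T i k).1).trans (add_zero _),
        (congrArg₂ (· + ·) (a.T i k).2 (a'.T i k).2).trans (add_zero _)⟩⟩
  smul_mem' := fun t _ a => ⟨
    fun z k => (congrFun (val_smul _ _) z).trans (by rw [Pi.smul_apply, a.D z k, smul_zero]),
    fun z k => (congrFun (val_smul _ _) z).trans (by rw [Pi.smul_apply, a.C z k, smul_zero]),
    (congrArg (t • ·) a.S).trans (smul_zero _), fun i k =>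
      ⟨(congrArg (t • ·) (a.T i k).1).trans (smul_zero _),
        (congrArg (t • ·) (a.T i k).2).trans (smul_zero _)⟩⟩

theorem pg_in (h1 : P ⊆ p.P) (t : Tq p U) {z : (W.Z c).M} (hz : z ∈ W.un c P) :
    (rf E t P P' ∅).Pg z = E.o.Pg z :=
  (indicator_of_mem hz _).trans (indicator_of_mem (biUnion_subset_biUnion_left h1 hz) _).symm

theorem σc_cpt (s : A' → ℝ) (i : h) (z : Cfg (W.Z c).M (Option κ) (lam ⊕ lam) r) :
    IsCompactOperator (J.σc c q s i z) :=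
  cpt_sum (A := fun w => (q w * J.cc i w s) • z.tc (J.B c) (J.G c s).F (J.cut c i)
    ((J.tp c).tc (J.tc i w))) _ fun w _ => (cpt_tc _).smul (q w * J.cc i w s)

variable (E P) in
/-- extension by zero of inner variations -/
def jx (t : Tq p U) : (b.F (sp p P ∅ ∅) U δ).F0.H (8 + 1) (rf E t P ∅ ∅).P1 →L[ℝ]
    (b.F p U δ).F0.H (8 + 1) E.o.P1 := ex (b.F p U δ).F0 9 (rf E t P ∅ ∅).P1 E.o.P1

variable (E P) in
/-- restriction of the curvature row -/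
def ρx (t : Tq p U) : E.o.Y n (min r 1) 8 →L[ℝ] (b.F (sp p P ∅ ∅) U δ).F0.H 8 (rf E t P ∅ ∅).P2 :=
  rs (b.F p U δ).F0 8 (rf E t P ∅ ∅).P2 E.o.P2 (W.un c P) ∘L .fst ℝ _ _ ∘L .snd ℝ _ _

theorem em0 (z : (W.Z c).M) : z ∉ W.un c (∅ : Set (Reg A)) := fun k => let ⟨_, a, _⟩ := mem_un.1 k; a

variable (H : CS σ E)
include H

theorem fr_row (i : p.H) : Fred93.Fr (E.row q x i) 0 :=
  fr_sub (Λ.B_ok _ _) E.o.ok (H.cut_ok H.hb x.ht i) (cn0_of (x.ad0 H.F).conn) (σc_cpt _ _ x.cfg)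

theorem ld_K (hf : E.Map q f) (η : E.K) (i : p.H) : (Ld f x ψ (0, η)).2.1 i = E.row q x i (η i) ∧
    (Ld f x ψ (0, η)).2.2 i = 2 * ⟪ψ i, η i⟫_ℝ :=
  lk_of (der_K H.F x hf.sm ψ η) (D := E.row q x) (fun _ i => hf.row x _ i)
    (fun _ i => hf.nrm x _ i) i

section inner
variable (h1 : P ⊆ p.P) (t : Tq p U)
include h1

theorem cl_un : IsClopen (W.un c P) := isClopen_un fun ρ k => H.pok.pc ρ (h1 k)

omit H in
theorem p2_in : ∀ z ∈ W.un c P, (rf E t P ∅ ∅).P2 z = E.o.P2 z := fun _ hz =>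
  congrArg (idx _) (pg_in h1 t hz)

theorem val_jx (α) : (b.F p U δ).F0.val 9 E.o.P1 (jx E P t α) =
    (b.F p U δ).F0.val 9 (rf E t P ∅ ∅).P1 α :=
  val_ex H.F.sup (k := 9) (by norm_num) (fun z v e => by
    by_cases hz : z ∈ W.un c P
    · exact (congrArg (fun T => idx _ T v) (pg_in h1 t hz)).symm.trans e
    · rw [idx_off (o := rf E t P ∅ ∅) e hz, map_zero]) α

theorem val_ρx (e : E.o.Y n (min r 1) 8) : (b.F p U δ).F0.val 8 (rf E t P ∅ ∅).P2 (ρx E P t e) =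
    (W.un c P).indicator ((b.F p U δ).F0.val 8 E.o.P2 e.2.1) :=
  val_rs H.F.sup (k := 8) (by norm_num) (cl_un H h1) (p2_in h1 t) e.2.1

omit h1 in
theorem z_in (z : (b.F (sp p P ∅ ∅) U δ).F0.H (8 + 1) (rf E t P ∅ ∅).Pp) : z = 0 :=
  val_injective (F := (b.F p U δ).F0) (k := 9) (p := (rf E t P ∅ ∅).Pp) H.F.sup (by norm_num)
    (funext fun w => (ind_off (val_proj (F := (b.F p U δ).F0.toPre) (k := 9)
      (p := (rf E t P ∅ ∅).Pp) H.F.sup (by norm_num) z w) (em0 w)).trans (congrFun val_zero w).symm)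

theorem t2_in {Hs : Set h} : ∀ e ∈ tg E ∅ (W.un c P) Hs, ρx E P t e.1 = 0 → e.1 = 0 := fun e he k => by
  refine Y_ext H.F (by norm_num) (funext fun z => (he.D z id).trans (congrFun val_zero z).symm)
    (funext fun z => .trans ?_ (congrFun val_zero z).symm) he.S
  by_cases hz : z ∈ W.un c P
  · exact (indicator_of_mem hz _).symm.trans ((congrFun (val_ρx H h1 t e.1) z).symm.trans
      ((congrArg (fun u => (b.F p U δ).F0.val 8 (rf E t P ∅ ∅).P2 u z) k).trans (congrFun val_zero z)))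
  · exact he.C z hz

theorem ρx_eq {e : E.o.Y n (min r 1) 8} {u : (b.F (sp p P ∅ ∅) U δ).F0.H 8 (rf E t P ∅ ∅).P2}
    (k : (b.F p U δ).F0.val 8 E.o.P2 e.2.1 = (b.F p U δ).F0.val 8 (rf E t P ∅ ∅).P2 u) :
    ρx E P t e = u :=
  val_injective (F := (b.F p U δ).F0) (k := 8) (p := (rf E t P ∅ ∅).P2) H.F.sup (by norm_num)
    ((val_ρx H h1 t e).trans ((congrArg _ k).trans (indicator_eq_self.2 fun z hz => by_contra
      fun k => hz (idx_off (o := rf E t P ∅ ∅) (val_proj (F := (b.F p U δ).F0.toPre) (k := 8)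
        (p := (rf E t P ∅ ∅).P2) H.F.sup (by norm_num) u z) k))))

end inner

theorem alt3 (h1 : P ⊆ p.P) (hf : E.Map q f) {Hs : Set h} {a : ℤ}
    {L : Nk89.CF (rf E x.t P ∅ ∅) 8 →L[ℝ] Nk89.YF (rf E x.t P ∅ ∅) 8 ×
      (b.F (sp p P ∅ ∅) U δ).F0.H 8 (rf E x.t P ∅ ∅).Pg} (hA : Fred93.Fr L a)
    (la : ∀ α η, (∀ l : p.H, l.1 ∉ Hs → η l = 0) →
      Ld f x ψ ((jx E P x.t α, 0), η) ∈ tg E ∅ (W.un c P) Hs ∧
        ρx E P x.t (Ld f x ψ ((jx E P x.t α, 0), η)).1 = (L (α, 0)).1.2)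
    (ln : ∀ i : p.H, i.1 ∈ Hs → ∀ η, E.row q x i η = 0 →
      ∃ s t : ℝ, η = s • ψ i + t • JH _ _ (ψ i))
    (hn : 2 * (Hs.ncard : ℤ) ≤ a + 1) {e₀ : E.Y} (t₀ : Tg ∅ (W.un c P) Hs e₀) :
    (∀ e ∈ tg E ∅ (W.un c P) Hs, ∃ v, ∃ τ : ℝ, Ld f x ψ v + τ • e₀ = e) ∨
      ∃ α η, ∃ τ : ℝ, (∀ l : p.H, l.1 ∉ Hs → η l = 0) ∧ (L (α, 0)).2 = 0 ∧
        Ld f x ψ ((jx E P x.t α, 0), η) + τ • e₀ = 0 ∧ (α ≠ 0 ∨ τ ≠ 0) :=
  alt2 (ι := p.H) (H := fun i => (J.cut c i).H (J.B c) E.o.m) (Y₀ := E.o.Y n (min r 1) 8)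
    (z_in H x.t) (Ld f x ψ) {i | i.1 ∈ Hs} (tg E ∅ (W.un c P) Hs) (ρx E P x.t) (jx E P x.t) hA
    (fr_row H) ψ (fun i => JH _ _ (ψ i)) (fun _ he => he.T) (t2_in H h1 x.t) la (ld_K H hf) ln
    (le_trans (by exact_mod_cast Nat.mul_le_mul_left 2 (ncard_le_ncard_of_injOn Subtype.val
      (fun _ k => k) Subtype.val_injective.injOn (toFinite _))) hn) t₀

omit H in
theorem rg_of {X Y : Type} [NormedAddCommGroup X] [NormedSpace ℝ X] [NormedAddCommGroup Y]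
    [NormedSpace ℝ Y] {L : X →L[ℝ] Y} {v : X} {τ : ℝ} {e₀ e : Y} (h₀ : e₀ ∈ range L)
    (k : L v + τ • e₀ = e) : e ∈ range L :=
  let ⟨w, hw⟩ := h₀; ⟨v + τ • w, by rw [map_add, map_smul, hw, k]⟩

omit H in
theorem vC_eq {e e₀ : E.Y} {τ : ℝ} (k : e + τ • e₀ = 0) : vC e = -τ • vC e₀ := by
  rw [eq_neg_of_add_eq_zero_left k, ← neg_smul]
  exact val_smul _ _

theorem hs_in (h1 : P ⊆ p.P) (h3 : ∅ ⊆ p.P') (hF : (b.F (sp p P ∅ ∅) U δ).OK)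
    (af : Map77.Aff (rf E x.t P ∅ ∅) (Nk89.Fs (b.F (sp p P ∅ ∅) U δ)) r n (min r 1)
      (EC.tot b (sp p P ∅ ∅) U δ q)) {g} (hg : RepF (EC.tot b (sp p P ∅ ∅) U δ q) g)
    {α : (b.F (sp p P ∅ ∅) U δ).F0.H (8 + 1) (rf E x.t P ∅ ∅).P1}
    {u : (W.Z c).M → Fm (Option κ × Option κ) E.o.m.A} (u0 : ∀ z ∉ W.un c P, u z = 0)
    (hu : u ∈ Mod61.Hs (b.F p U δ).F0.toPre E.o.P2) {τ : ℝ}
    (e : (b.F (sp p P ∅ ∅) U δ).F0.val 8 (rf E x.t P ∅ ∅).P2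
      (fderiv ℝ g ((rx H x h1 h3 ∅).pt 8) (α, 0, 0)).2.1 = τ • u)
    (k : Nk89.row 8 (rx H x h1 h3 ∅) (α, 0) = 0) :
    (b.F (sp p P ∅ ∅) U δ).F0.val 9 (rf E x.t P ∅ ∅).P1 α ∈
      Mod61.Hs (b.F (sp p P ∅ ∅) U δ).F0.toPre (rf E x.t P ∅ ∅).P1 :=
  (boot_hs (Map77.adj_rem hF) af (k := 8) (by norm_num) (rx H x h1 h3 ∅) hg
    (v := (α, 0, 0)) rfl (Eq.mpr (congrArg (· ∈ _) (funext fun w =>
      ind_off (val_proj hF.sup (by norm_num) _ w) (em0 w))) (zero_mem _))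
    (Eq.mpr (congrArg (· ∈ _) (e.trans (congrArg _ (indicator_eq_self.2
      fun z hz => by_contra fun k => hz (u0 z k)).symm)))
      (Submodule.smul_mem _ _ (hs_ind H (cl_un H h1) hu (p2_in h1 x.t)))) k).1

/-- **the alternative in a chart** -/
theorem altc (h1 : P ⊆ p.P) (h3 : ∅ ⊆ p.P') (hF : (b.F (sp p P ∅ ∅) U δ).OK)
    (af : Map77.Aff (rf E x.t P ∅ ∅) (Nk89.Fs (b.F (sp p P ∅ ∅) U δ)) r n (min r 1) (EC.tot b (sp p P ∅ ∅) U δ q))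
    (hf : E.Map q f) {O : Set (W.Z c).M} (hO : W.un c P = O) {Hs : Set h} {a : ℤ}
    (ix : Nk89.Idx 8 (EC.tot b (sp p P ∅ ∅) U δ q) (rx H x h1 h3 ∅) a)
    (la : ∀ g, RepF (EC.tot b (sp p P ∅ ∅) U δ q) g → ∀ α' α η,
      (b.F p U δ).F0.val 9 E.o.P1 α = (b.F p U δ).F0.val 9 _ α' → (∀ l, l.1 ∉ Hs → η l = 0) →
      Tg ∅ O Hs (Ld f x ψ ((α, 0, 0), η)) ∧ vC (Ld f x ψ ((α, 0, 0), η)) =
        (b.F p U δ).F0.val 8 _ (fderiv ℝ g ((rx H x h1 h3 ∅).pt 8) (α', 0, 0)).2.1)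
    (ln : ∀ i : p.H, i.1 ∈ Hs → ∀ η, E.row q x i η = 0 →
      ∃ s t : ℝ, η = s • ψ i + t • JH _ _ (ψ i))
    (hn : 2 * (Hs.ncard : ℤ) ≤ a + 1) {e₀ : E.Y} (h₀ : e₀ ∈ range (Ld f x ψ)) (t₀ : Tg ∅ O Hs e₀)
    (s₀ : vC e₀ ∈ Mod61.Hs (b.F p U δ).F0.toPre E.o.P2) :
    Ht (Ld f x ψ) ∅ O Hs ∨ ∃ α η, ∃ τ : ℝ,
      α ∈ Mod61.Hs (b.F p U δ).F0.toPre (rf E x.t P ∅ ∅).P1 ∧ (∀ l, l.1 ∉ Hs → η l = 0) ∧
      Nk89.row 8 (rx H x h1 h3 ∅) (ofV _ 9 _ α, 0) = 0 ∧ Ld f x ψ (va E α η) + τ • e₀ = 0 ∧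
      (α ≠ 0 ∨ τ ≠ 0) := by
  subst hO
  obtain ⟨g, hg, hA⟩ := ix
  have S := H.F.sup
  have la' := fun α η k => la g hg α _ η (val_jx H h1 x.t α) k
  refine (alt3 H h1 hf hA (fun α η k => ⟨(la' α η k).1, ρx_eq H h1 x.t (la' α η k).2⟩) ln hn t₀).imp
    (fun k e he => (k e he).elim fun v k => k.elim fun τ k => rg_of (X := E.C) (Y := E.Y) h₀ k) ?_
  rintro ⟨α, η, τ, k1, k2, k3, k4⟩
  have m := hs_in H h1 h3 hF af hg t₀.C s₀ ((la' α η k1).2.symm.trans (vC_eq k3)) k2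
  refine ⟨_, η, τ, m, k1, (congrArg (fun u => Nk89.row 8 (rx H x h1 h3 ∅) (u, 0))
    (ofV_eq hF.sup (by norm_num) rfl)).trans k2, Eq.trans (congrArg (fun u =>
      Ld f x ψ ((u, 0, 0), η) + τ • e₀) (ofV_eq S (by norm_num) (val_jx H h1 x.t α))) k3,
    k4.imp_left fun k e => k ?_⟩
  exact val_injective hF.sup (by norm_num) (e.trans val_zero.symm)

end Crest.Agent.X212.Alc32
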